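import Vale.Agent.P032.Bdl.B1

namespace Vale.Agent.Results.P032.BaireBlocks

open Set

theorem six_of_blocks {k m : ℕ} (c : EuclideanSpace ℝ (Fin 2) → Fin k)
    (D : Set (EuclideanSpace ℝ (Fin 2))) (hD : D ∈ residual (EuclideanSpace ℝ (Fin 2)))
    (hc : ∀ x ∈ D, ∀ y ∈ D, dist x y = 1 → c x ≠ c y) (π : Fin k → Fin m)
    (hπ : ∀ j, (Finset.univ.filter (fun i => π i = j)).card ≤ 2)
    (hB : ∀ j, BaireMeasurableSet {x | π (c x) = j}) : 6 ≤ k := by
  by_contra hk
  obtain ⟨c', G, hG, -, hB', hc'⟩ := Vale.Agent.P032.Blk.exists_nice c π hπ hB hD hc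
  obtain ⟨F, hF⟩ := Vale.Agent.P032.B.exists_covE c' hG hc' hB'
  obtain ⟨G', hG'⟩ := Vale.Agent.P032.B.exists_CC (by omega) hF
  exact Vale.Agent.P032.B.no_CC G' hG'

/-- Let the Euclidean plane be coloured with `k` colours such that, for some comeagre set `D`, two
points of `D` at distance one never have the same colour.

(1) If the colours can be grouped in blocks of at most two colours such that for every block the
union of its colour classes has the property of Baire, then `6 ≤ k`.

(2) If `k ≤ 5`, then at least three of the colour classes do not have the property of Baire. -/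
theorem result {k : ℕ} (c : EuclideanSpace ℝ (Fin 2) → Fin k)
    (D : Set (EuclideanSpace ℝ (Fin 2))) (hD : D ∈ residual (EuclideanSpace ℝ (Fin 2)))
    (hc : ∀ x ∈ D, ∀ y ∈ D, dist x y = 1 → c x ≠ c y) :
    (∀ (m : ℕ) (π : Fin k → Fin m), (∀ j, (Finset.univ.filter (fun i => π i = j)).card ≤ 2) →
      (∀ j, BaireMeasurableSet {x | π (c x) = j}) → 6 ≤ k) ∧
    (k ≤ 5 → 3 ≤ {i | ¬ BaireMeasurableSet (c ⁻¹' {i})}.ncard) := by
  classical
  refine ⟨fun m π hπ hB => six_of_blocks c D hD hc π hπ hB, fun hk => ?_⟩
  by_contra hN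
  set N : Set (Fin k) := {i | ¬ BaireMeasurableSet (c ⁻¹' {i})} with hNdef
  set π : Fin k → Fin (k + 1) := fun i => if i ∈ N then Fin.last k else Fin.castSucc i with hπ
  have h1 : ∀ i, i ∈ N → π i = Fin.last k := fun i hi => by simp only [hπ, if_pos hi]
  have h2 : ∀ i, i ∉ N → π i = Fin.castSucc i := fun i hi => by simp only [hπ, if_neg hi]
  have h3 : ∀ i, π i = Fin.last k ↔ i ∈ N := by
    intro i
    refine ⟨fun h => ?_, h1 i⟩
    by_contra hi
    rw [h2 i hi] at h
    exact (Fin.castSucc_lt_last i).ne h
  have h4 : ∀ i j, π i = Fin.castSucc j ↔ i = j ∧ i ∉ N := by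
    intro i j
    by_cases hi : i ∈ N
    · rw [h1 i hi]
      exact ⟨fun h => ((Fin.castSucc_lt_last j).ne' h).elim, fun h => (h.2 hi).elim⟩
    · rw [h2 i hi, Fin.castSucc_inj]
      exact ⟨fun h => ⟨h, hi⟩, fun h => h.1⟩
  have h6 : 6 ≤ k := by
    refine six_of_blocks c D hD hc π ?_ ?_
    · intro j
      refine Fin.lastCases ?_ (fun j => ?_) j
      · have : (Finset.univ.filter (fun i => π i = Fin.last k)) = N.toFinset := by
          ext i
          simp [h3]
        rw [this, ← Set.ncard_eq_toFinset_card']
        omega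
      · refine le_trans (Finset.card_le_one.2 ?_) one_le_two
        intro a ha b hb
        rw [Finset.mem_filter, h4] at ha hb
        rw [ha.2.1, hb.2.1]
    · intro j
      refine Fin.lastCases ?_ (fun j => ?_) j
      · have : {x | π (c x) = Fin.last k} = (⋃ i : {i // i ∉ N}, c ⁻¹' {i.1})ᶜ := by
          ext x
          simp only [mem_ofPred_eq, h3, mem_compl_iff, mem_iUnion, mem_preimage,
            mem_singleton_iff, Subtype.exists, not_exists]
          exact ⟨fun h a ha e => ha (e ▸ h), fun h => by
            by_contra h'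
            exact h _ h' rfl⟩
        rw [this]
        refine BaireMeasurableSet.compl (BaireMeasurableSet.iUnion fun i => ?_)
        exact not_not.1 i.2
      · by_cases hj : j ∈ N
        · have : {x | π (c x) = Fin.castSucc j} = ∅ := by
            ext x
            simp only [mem_ofPred_eq, h4, mem_empty_iff_false, iff_false]
            rintro ⟨rfl, h⟩
            exact h hj
          rw [this]
          exact isOpen_empty.baireMeasurableSet
        · have : {x | π (c x) = Fin.castSucc j} = c ⁻¹' {j} := by
            ext x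
            simp only [mem_ofPred_eq, h4, mem_preimage, mem_singleton_iff]
            exact ⟨fun h => h.1, fun h => ⟨h, h ▸ hj⟩⟩
          rw [this]
          exact not_not.1 hj
  omega

end Vale.Agent.Results.P032.BaireBlocks
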