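import Vale.Agent.P032.Bdl.B1

namespace Vale.Agent.Results.P032.BaireSix

/-- Let the Euclidean plane be coloured with `k` colours such that every colour class has the
property of Baire (for instance, all classes are Borel sets) and such that, for some comeagre set
`D`, two points of `D` at distance one never have the same colour. Then `6 ≤ k`. With `D = univ`
this says that a proper colouring of the plane whose classes have the property of Baire uses at
least six colours. -/
theorem result {k : ℕ} (c : EuclideanSpace ℝ (Fin 2) → Fin k)
    (hB : ∀ i, BaireMeasurableSet (c ⁻¹' {i}))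
    (D : Set (EuclideanSpace ℝ (Fin 2))) (hD : D ∈ residual (EuclideanSpace ℝ (Fin 2)))
    (hc : ∀ x ∈ D, ∀ y ∈ D, dist x y = 1 → c x ≠ c y) : 6 ≤ k := by
  by_contra hk
  obtain ⟨F, hF⟩ := Vale.Agent.P032.B.exists_covE c hD hc hB
  obtain ⟨G, hG⟩ := Vale.Agent.P032.B.exists_CC (by omega) hF
  exact Vale.Agent.P032.B.no_CC G hG

end Vale.Agent.Results.P032.BaireSix
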